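import Mathlib

/-!
# P004F, block CH: the choice of a new Kolyvagin element, pure algebra
-/

set_option linter.all false

noncomputable section

namespace Vale.Agent.P004F.Ch

open Submodule Function

variable {O G : Type} [CommRing O] [Group G]

/-- the group data: `A` is trivial on the normal subgroup `H`, `σ` is conjugation, the image of
`A` spans all matrices -/
structure Cb0 (A : G → Matrix (Fin 2) (Fin 2) O) (H : Subgroup G) (σ : G →* G) : Prop where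
  mul : ∀ g h, A (g * h) = A g * A h
  nrm : ∀ g, ∀ h ∈ H, g * h * g⁻¹ ∈ H
  ker : ∀ h ∈ H, A h = 1
  st : ∀ h ∈ H, σ h ∈ H
  sp : span O (Set.range A) = ⊤

/-- moreover `τ` acts by two scalars with invertible difference -/
structure Cb (A : G → Matrix (Fin 2) (Fin 2) O) (H : Subgroup G) (σ : G →* G) (τ : G) (u u' : O) :
    Prop extends Cb0 A H σ where
  t1 : A τ = u • (1 : Matrix (Fin 2) (Fin 2) O)
  t2 : A (σ τ) = u' • (1 : Matrix (Fin 2) (Fin 2) O)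
  un : IsUnit (u - u')

/-- the conjugate representation is different -/
def Ni (A : G → Matrix (Fin 2) (Fin 2) O) (σ : G →* G) : Prop :=
  ∃ g i j, IsUnit ((A (σ g) - A g) i j)

variable {M : Type} [AddCommGroup M] [Module O M] {M' : Type} [AddCommGroup M'] [Module O M']

/-- cocycle with values in pairs -/
def Co (A : G → Matrix (Fin 2) (Fin 2) O) (z : G → Fin 2 → M) : Prop :=
  ∀ g h, z (g * h) = z g + fun i => ∑ j, A g i j • z h j

/-- additive and equivariant on `H` -/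
structure Ad (A : G → Matrix (Fin 2) (Fin 2) O) (H : Subgroup G) (z : G → Fin 2 → M) : Prop where
  add : ∀ h ∈ H, ∀ h' ∈ H, z (h * h') = z h + z h'
  cj : ∀ g, ∀ h ∈ H, z (g * h * g⁻¹) = fun i => ∑ j, A g i j • z h j

variable (O) in
/-- the values on `H` -/
def Y (H : Subgroup G) (z : G → Fin 2 → M) : Submodule O M :=
  span O {x | ∃ h ∈ H, ∃ i, z h i = x}

theorem mem_Y {H : Subgroup G} (z : G → Fin 2 → M) {h : G} (m : h ∈ H) (i : Fin 2) :
    z h i ∈ Y O H z := subset_span ⟨h, m, i, rfl⟩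

theorem Y_le {H : Subgroup G} {z : G → Fin 2 → M} {N : Submodule O M} :
    Y O H z ≤ N ↔ ∀ h ∈ H, ∀ i, z h i ∈ N :=
  ⟨fun e h m i => e (mem_Y z m i), fun e => span_le.2 (by rintro _ ⟨h, m, i, rfl⟩; exact e h m i)⟩

variable {A : G → Matrix (Fin 2) (Fin 2) O} {H : Subgroup G} {σ : G →* G} {τ : G} {u u' : O}
  {z : G → Fin 2 → M}

theorem sm_one (c : O) (x : Fin 2 → M) :
    (fun i => ∑ j, (c • (1 : Matrix (Fin 2) (Fin 2) O)) i j • x j) = c • x := by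
  ext i; fin_cases i <;> simp [Fin.sum_univ_two]

theorem one_sm (x : Fin 2 → M) : (fun i => ∑ j, (1 : Matrix (Fin 2) (Fin 2) O) i j • x j) = x := by
  simpa using sm_one (1 : O) x

theorem Co.map (c : Co A z) (f : M →ₗ[O] M') : Co A fun g i => f (z g i) := fun g h => by
  ext i; simp [c g h]

theorem Ad.map (c : Ad A H z) (f : M →ₗ[O] M') : Ad A H fun g i => f (z g i) :=
  ⟨fun h m h' m' => by ext i; simp [c.add h m h' m'], fun g h m => by ext i; simp [c.cj g h m]⟩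

theorem Co.left (c : Co A z) {h : G} (e : A h = 1) (g : G) : z (h * g) = z h + z g := by
  rw [c, e, one_sm]

theorem Co.one (c : Co A z) (e : A 1 = 1) : z 1 = 0 := by
  have := c.left e 1
  rwa [mul_one, left_eq_add] at this

theorem Cb.ni (b : Cb A H σ τ u u') : Ni A σ :=
  ⟨τ, 0, 0, by simpa [b.t1, b.t2] using b.un.neg⟩

theorem Co.ad (c : Co A z) (b : Cb0 A H σ) : Ad A H z := by
  refine ⟨fun h m _ _ => c.left (b.ker h m) _, fun g h m => ?_⟩
  have e := c g g⁻¹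
  rw [mul_inv_cancel, c.one (b.ker 1 H.one_mem)] at e
  rw [mul_assoc, c, c.left (b.ker h m)]
  ext i
  have := congrFun e i
  simp only [Pi.add_apply, smul_add, Finset.sum_add_distrib, Pi.zero_apply] at this ⊢
  rw [add_left_comm, ← this, add_zero]

theorem Ad.one (c : Ad A H z) : z 1 = 0 := by
  have := c.add 1 H.one_mem 1 H.one_mem
  rwa [mul_one, left_eq_add] at this

theorem Ad.inv (c : Ad A H z) {h : G} (m : h ∈ H) : z h⁻¹ = - z h := by
  have := c.add h m h⁻¹ (H.inv_mem m)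
  rw [mul_inv_cancel, c.one] at this
  exact (neg_eq_of_add_eq_zero_right this.symm).symm

/-- the Kolyvagin element attached to `h` -/
def ko (σ : G →* G) (h : G) : G := σ h * h

theorem Cb0.ko_mem (b : Cb0 A H σ) {h : G} (m : h ∈ H) : ko σ h ∈ H := H.mul_mem (b.st h m) m

theorem Ad.ko_eq (c : Ad A H z) (b : Cb0 A H σ) {h : G} (m : h ∈ H) :
    z (ko σ h) = z (σ h) + z h := c.add _ (b.st h m) _ m

theorem Ad.ko_mul (c : Ad A H z) (b : Cb0 A H σ) {h h' : G} (m : h ∈ H) (m' : h' ∈ H) :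
    z (ko σ (h * h')) = z (ko σ h) + z (ko σ h') := by
  rw [c.ko_eq b (H.mul_mem m m'), c.ko_eq b m, c.ko_eq b m', map_mul, c.add _ (b.st h m) _ (b.st h' m'),
    c.add _ m _ m']
  abel

theorem Ad.ko_inv (c : Ad A H z) (b : Cb0 A H σ) {h : G} (m : h ∈ H) :
    z (ko σ h⁻¹) = - z (ko σ h) := by
  rw [c.ko_eq b (H.inv_mem m), c.ko_eq b m, map_inv, c.inv (b.st h m), c.inv m, neg_add]

/-- a linear map which kills the Kolyvagin values kills all values -/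
theorem Ad.tau (c : Ad A H z) (b : Cb A H σ τ u u') (f : (Fin 2 → M) →ₗ[O] M')
    (e : ∀ h ∈ H, f (z (ko σ h)) = 0) {h : G} (m : h ∈ H) : f (z h) = 0 := by
  have e1 := e h m
  have e2 := e _ (b.nrm τ h m)
  rw [c.ko_eq b.toCb0 m, map_add] at e1
  rw [c.ko_eq b.toCb0 (b.nrm τ h m), map_mul, map_mul, map_inv, c.cj _ _ (b.st h m), c.cj _ _ m, b.t1, b.t2,
    sm_one, sm_one, map_add, map_smul, map_smul, eq_neg_of_add_eq_zero_left e1] at e2
  refine (b.un.smul_eq_zero).1 ?_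
  rw [sub_smul, ← e2, smul_neg]
  abel

/-- a matrix applied to a fixed column -/
def mv (x : Fin 2 → M) : Matrix (Fin 2) (Fin 2) O →ₗ[O] Fin 2 → M where
  toFun B i := ∑ j, B i j • x j
  map_add' B C := by ext i; simp [add_smul, Finset.sum_add_distrib]
  map_smul' a B := by ext i; simp [mul_smul]

theorem Ad.sing (c : Ad A H z) (b : Cb0 A H σ) (f : (Fin 2 → M) →ₗ[O] M')
    (e : ∀ h ∈ H, f (z h) = 0) {h : G} (m : h ∈ H) (i j : Fin 2) :
    f (Pi.single i (z h j)) = 0 := by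
  have k : span O (Set.range A) ≤ LinearMap.ker (f ∘ₗ mv (z h)) := span_le.2 (by
    rintro _ ⟨g, rfl⟩
    exact (congrArg f (c.cj g h m)).symm.trans (e _ (b.nrm g h m)))
  refine Eq.trans (congrArg f ?_) (k (x := Matrix.single i j 1) (by rw [b.sp]; trivial))
  ext a
  fin_cases i <;> fin_cases j <;> fin_cases a <;> simp [mv, Matrix.single, Fin.sum_univ_two]

theorem Ad.all (c : Ad A H z) (b : Cb A H σ τ u u') (f : (Fin 2 → M) →ₗ[O] M')
    (e : ∀ h ∈ H, f (z (ko σ h)) = 0) {h : G} (m : h ∈ H) (i j : Fin 2) :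
    f (Pi.single i (z h j)) = 0 := c.sing b.toCb0 f (fun _ m => c.tau b f e m) m i j

theorem Ad.zero (c : Ad A H z) (b : Cb0 A H σ) (n : Ni A σ) (e : ∀ h ∈ H, z (ko σ h) = 0) {h : G}
    (m : h ∈ H) : z h = 0 := by
  obtain ⟨g, i, j, n⟩ := n
  have e1 : ∀ h ∈ H, z (σ h) = - z h := fun h m =>
    eq_neg_of_add_eq_zero_left ((c.ko_eq b m).symm.trans (e h m))
  let f : (Fin 2 → M) →ₗ[O] M := ∑ a, (A (σ g) - A g) i a • LinearMap.proj a
  ext a
  refine n.smul_eq_zero.1 (Eq.trans ?_ (c.sing b f (fun h m => ?_) m j a))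
  · fin_cases j <;> simp [f, Fin.sum_univ_two]
  · have := congrFun (e1 _ (b.nrm g h m)) i
    rw [map_mul, map_mul, map_inv, c.cj _ _ (b.st h m), c.cj _ _ m, e1 h m] at this
    simp only [Pi.neg_apply, smul_neg, Finset.sum_neg_distrib, neg_inj] at this
    simp only [f, LinearMap.sum_apply, LinearMap.smul_apply, LinearMap.proj_apply, Matrix.sub_apply,
      sub_smul, LinearMap.sub_apply, Finset.sum_sub_distrib, this, sub_self]

/-- **the Kolyvagin values generate all values** -/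
theorem Ad.Y_le (c : Ad A H z) (b : Cb0 A H σ) (n : Ni A σ) {N : Submodule O M}
    (e : ∀ h ∈ H, ∀ i, z (ko σ h) i ∈ N) : Y O H z ≤ N := Ch.Y_le.2 fun h m i =>
  (Quotient.mk_eq_zero N).1 (congrFun ((c.map N.mkQ).zero b n
    (fun h m => funext fun i => (Quotient.mk_eq_zero N).2 (e h m i)) m) i)

theorem Ad.span_eq (c : Ad A H z) (b : Cb0 A H σ) (n : Ni A σ) :
    Y O H z = span O {x | ∃ h ∈ H, ∃ i, z (ko σ h) i = x} :=
  le_antisymm (c.Y_le b n fun h m i => subset_span ⟨h, m, i, rfl⟩)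
    (span_le.2 (by rintro _ ⟨h, m, i, rfl⟩; exact mem_Y z (b.ko_mem m) i))

/-- **finitely many Kolyvagin elements generate** -/
theorem Ad.ex_fin [IsNoetherian O M] (c : Ad A H z) (b : Cb0 A H σ) (n : Ni A σ) :
    ∃ (n : ℕ) (h : Fin n → G), (∀ a, h a ∈ H) ∧
      Y O H z = span O (Set.range fun p : Fin n × Fin 2 => z (ko σ (h p.1)) p.2) := by
  have f : (Y O H z).FG := IsNoetherian.noetherian _
  rw [c.span_eq b n] at f
  obtain ⟨s, h1, h2⟩ := (fg_span_iff_fg_span_finset_subset _).1 f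
  choose h m i e using fun x : s => h1 x.2
  refine ⟨s.card, fun a => h (s.equivFin.symm a), fun a => m _, le_antisymm ?_ ?_⟩
  · rw [c.span_eq b n, h2]
    exact span_mono fun x hx => ⟨(s.equivFin ⟨x, hx⟩, i ⟨x, hx⟩), by simpa using e ⟨x, hx⟩⟩
  · exact span_le.2 (by rintro _ ⟨p, rfl⟩; exact mem_Y z (b.ko_mem (m _)) _)

section core
variable {k : Type} [CommRing k] [IsDomain k] [Algebra O k] {w : G → Fin 2 → k × k}

/-- the determinant of a pair of columns -/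
def dt (x : Fin 2 → k × k) : k := (x 0).1 * (x 1).2 - (x 1).1 * (x 0).2

variable (O) in
/-- the polar form -/
def pf (v : Fin 2 → k × k) : (Fin 2 → k × k) →ₗ[O] k where
  toFun x := (x 0).1 * (v 1).2 + (v 0).1 * (x 1).2 - (x 1).1 * (v 0).2 - (v 1).1 * (x 0).2
  map_add' x y := by simp only [Pi.add_apply, Prod.fst_add, Prod.snd_add]; ring
  map_smul' a x := by
    simp only [Pi.smul_apply, Prod.smul_fst, Prod.smul_snd, smul_mul_assoc, mul_smul_comm, smul_sub,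
      smul_add, RingHom.id_apply]

omit [IsDomain k] in
theorem pf_eq (v x : Fin 2 → k × k) : pf O v x =
    (x 0).1 * (v 1).2 + (v 0).1 * (x 1).2 - (x 1).1 * (v 0).2 - (v 1).1 * (x 0).2 := rfl

theorem ex_dt (c : Ad A H w) (b : Cb A H σ τ u u')
    (ind : ∀ x y : k, (∀ h ∈ H, ∀ i, x * (w h i).1 + y * (w h i).2 = 0) → x = 0 ∧ y = 0) :
    ∃ h ∈ H, dt (w (ko σ h)) ≠ 0 := by
  by_contra hc
  push Not at hc
  have e : ∀ h' ∈ H, w (ko σ h') = 0 := fun h' m' => by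
    have e1 : ∀ h ∈ H, pf O (w (ko σ h')) (w (ko σ h)) = 0 := fun h m => by
      have a1 := hc _ (H.mul_mem m m')
      have a2 := hc _ m
      have a3 := hc _ m'
      rw [c.ko_mul b.toCb0 m m'] at a1
      simp only [dt, Pi.add_apply, Prod.fst_add, Prod.snd_add] at a1 a2 a3
      rw [pf_eq]
      linear_combination a1 - a2 - a3
    generalize w (ko σ h') = v at e1
    obtain ⟨a1, a2⟩ := ind (v 1).2 (-(v 1).1) fun h m j => by
      have := c.all b _ e1 m 0 j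
      simp [pf_eq] at this
      linear_combination this
    obtain ⟨a3, a4⟩ := ind (-(v 0).2) (v 0).1 fun h m j => by
      have := c.all b _ e1 m 1 j
      simp [pf_eq] at this
      linear_combination this
    ext i <;> fin_cases i
    exacts [a4, neg_eq_zero.1 a2, neg_eq_zero.1 a3, a1]
  refine one_ne_zero (ind 1 0 fun h m i => ?_).1
  have : w h = 0 := c.tau b LinearMap.id e m
  simp [this]

/-- **the choice of the element** -/
theorem core (c : Ad A H w) (c' : Ad A H z) (b : Cb A H σ τ u u') (h2 : (2 : k) ≠ 0)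
    (ind : ∀ x y : k, (∀ h ∈ H, ∀ i, x * (w h i).1 + y * (w h i).2 = 0) → x = 0 ∧ y = 0)
    (nz : ∃ h ∈ H, z h ≠ 0) : ∃ h ∈ H, dt (w (ko σ h)) ≠ 0 ∧ z (ko σ h) ≠ 0 := by
  obtain ⟨h1, m1, e1⟩ := ex_dt c b ind
  obtain ⟨h2', m2, e2⟩ : ∃ h ∈ H, z (ko σ h) ≠ 0 := by
    by_contra hc
    push Not at hc
    obtain ⟨h, m, e⟩ := nz
    exact e (c'.tau b LinearMap.id hc m)
  by_contra hc
  push Not at hc
  have e3 := hc h1 m1 e1
  have a1 : dt (w (ko σ h2')) = 0 := by_contra fun e => e2 (hc _ m2 e)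
  have a2 : dt (w (ko σ (h1 * h2'))) = 0 := by_contra fun e => e2 (by
    simpa [c'.ko_mul b.toCb0 m1 m2, e3] using hc _ (H.mul_mem m1 m2) e)
  have a3 : dt (w (ko σ (h1⁻¹ * h2'))) = 0 := by_contra fun e => e2 (by
    simpa [c'.ko_mul b.toCb0 (H.inv_mem m1) m2, c'.ko_inv b.toCb0 m1, e3] using
      hc _ (H.mul_mem (H.inv_mem m1) m2) e)
  rw [c.ko_mul b.toCb0 m1 m2] at a2
  rw [c.ko_mul b.toCb0 (H.inv_mem m1) m2, c.ko_inv b.toCb0 m1] at a3
  refine e1 ((mul_eq_zero.1 ?_).resolve_left h2)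
  simp only [dt, Pi.add_apply, Pi.neg_apply, Prod.fst_add, Prod.snd_add, Prod.fst_neg,
    Prod.snd_neg] at a1 a2 a3 ⊢
  linear_combination a2 + a3 - 2 * a1

end core

section pts
variable [IsDomain O] {b ϖ : O}

theorem ex_tor (hb : b ≠ 0) {x : O ⧸ Ideal.span {b * ϖ}} (hϖ : ϖ ≠ 0) (h : ϖ • x = 0) :
    ∃ p : O, x = Ideal.Quotient.mk _ (b * p) := by
  obtain ⟨x, rfl⟩ := Ideal.Quotient.mk_surjective x
  rw [← Ideal.Quotient.mk_eq_mk, ← Quotient.mk_smul, Quotient.mk_eq_zero, Ideal.mem_span_singleton,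
    smul_eq_mul, mul_comm ϖ, mul_dvd_mul_iff_right hϖ] at h
  obtain ⟨p, rfl⟩ := h
  exact ⟨p, rfl⟩

theorem mk_zero (hb : b ≠ 0) {p : O} :
    Ideal.Quotient.mk (Ideal.span {b * ϖ}) (b * p) = 0 ↔ ϖ ∣ p := by
  rw [Ideal.Quotient.eq_zero_iff_mem, Ideal.mem_span_singleton, mul_dvd_mul_iff_left hb]

/-- two points with values in `O / b ϖ` and a third map -/
theorem chG (c : Ad A H z) (B : Cb A H σ τ u u') (hb : b ≠ 0) (hϖ : Prime ϖ) (h2 : ¬ ϖ ∣ 2)
    (g g' : M →ₗ[O] O ⧸ Ideal.span {b * ϖ}) (κ : M →ₗ[O] M')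
    (h1 : ∀ y ∈ Y O H z, ϖ • g y = 0 ∧ ϖ • g' y = 0)
    (ind : ∀ x y : O, (∀ v ∈ Y O H z, x • g v + y • g' v = 0) → ϖ ∣ x ∧ ϖ ∣ y)
    (nz : ∃ y ∈ Y O H z, κ y ≠ 0) : ∃ h ∈ H, ∃ p q : Fin 2 → O,
      (∀ i, g (z (ko σ h) i) = Ideal.Quotient.mk _ (b * p i)) ∧
      (∀ i, g' (z (ko σ h) i) = Ideal.Quotient.mk _ (b * q i)) ∧ ¬ ϖ ∣ p 0 * q 1 - p 1 * q 0 ∧
      ∃ i, κ (z (ko σ h) i) ≠ 0 := by
  classical
  have : (Ideal.span {ϖ}).IsPrime := (Ideal.span_singleton_prime hϖ.ne_zero).2 hϖ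
  have z0 : ∀ p : O, Ideal.Quotient.mk (Ideal.span {ϖ}) p = 0 ↔ ϖ ∣ p := fun p => by
    rw [Ideal.Quotient.eq_zero_iff_mem, Ideal.mem_span_singleton]
  let e : (O ⧸ Ideal.span {ϖ}) →ₗ[O] O ⧸ Ideal.span {b * ϖ} :=
    (Ideal.span {ϖ}).liftQ ((Ideal.span {b * ϖ}).mkQ ∘ₗ LinearMap.mul O O b) fun p hp =>
      (mk_zero hb).2 (Ideal.mem_span_singleton.1 hp)
  have he : ∀ p, e (Ideal.Quotient.mk _ p) = Ideal.Quotient.mk _ (b * p) := fun p => rfl
  have hi : Injective e := (injective_iff_map_eq_zero e).2 fun x hx => by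
    obtain ⟨x, rfl⟩ := Ideal.Quotient.mk_surjective x
    exact (z0 x).2 ((mk_zero hb).1 hx)
  have θ : ∀ {x}, ϖ • x = 0 → e (invFun e x) = x := fun hx => by
    obtain ⟨p, rfl⟩ := ex_tor hb hϖ.ne_zero hx
    exact invFun_eq ⟨_, he p⟩
  let w : G → Fin 2 → (O ⧸ Ideal.span {ϖ}) × (O ⧸ Ideal.span {ϖ}) := fun h i =>
    (invFun e (g (z h i)), invFun e (g' (z h i)))
  have w1 : ∀ h ∈ H, ∀ i, e (w h i).1 = g (z h i) := fun h m i => θ (h1 _ (mem_Y z m i)).1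
  have w2 : ∀ h ∈ H, ∀ i, e (w h i).2 = g' (z h i) := fun h m i => θ (h1 _ (mem_Y z m i)).2
  have cw : Ad A H w := by
    refine ⟨fun h m h' m' => ?_, fun a h m => ?_⟩ <;> ext i <;> apply hi
    · simp [w1 _ (H.mul_mem m m'), w1 _ m, w1 _ m', c.add h m h' m']
    · simp [w2 _ (H.mul_mem m m'), w2 _ m, w2 _ m', c.add h m h' m']
    · simp [w1 _ (B.nrm a h m), w1 _ m, c.cj a h m, Prod.fst_sum]
    · simp [w2 _ (B.nrm a h m), w2 _ m, c.cj a h m, Prod.snd_sum]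
  obtain ⟨h, m, k1, k2⟩ := core cw (c.map κ) B (fun e => h2 ((z0 2).1 e)) (fun x y hx => by
    obtain ⟨x, rfl⟩ := Ideal.Quotient.mk_surjective x
    obtain ⟨y, rfl⟩ := Ideal.Quotient.mk_surjective y
    rw [z0, z0]
    refine ind x y fun v hv => (Y_le (N := LinearMap.ker (x • g + y • g'))).2 (fun h m i => ?_) hv
    show x • g _ + y • g' _ = 0
    rw [← w1 h m, ← w2 h m, ← map_smul, ← map_smul, ← map_add, ← e.map_zero, ← hx h m i]
    rfl) (by
    by_contra hc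
    push Not at hc
    obtain ⟨y, hy, k⟩ := nz
    exact k ((Y_le (N := LinearMap.ker κ)).2 (fun h m i => congrFun (hc h m) i) hy))
  choose p hp using fun i => Ideal.Quotient.mk_surjective (w (ko σ h) i).1
  choose q hq using fun i => Ideal.Quotient.mk_surjective (w (ko σ h) i).2
  refine ⟨h, m, p, q, fun i => by rw [← w1 _ (B.ko_mem m), ← hp, he],
    fun i => by rw [← w2 _ (B.ko_mem m), ← hq, he], fun k => k1 ?_, ne_iff.1 k2⟩
  rw [dt, ← hp, ← hp, ← hq, ← hq, ← map_mul, ← map_mul, ← map_sub, z0]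
  exact k

/-- **the form for `CHB`** -/
theorem chB (c : Ad A H z) (B : Cb A H σ τ u u') (hb : b ≠ 0) (hϖ : Prime ϖ) (h2 : ¬ ϖ ∣ 2)
    (g g' : M →ₗ[O] O ⧸ Ideal.span {b * ϖ}) (κ : M →ₗ[O] M')
    (h1 : ∀ y ∈ Y O H z, ϖ • g y = 0 ∧ ϖ • g' y = 0)
    (ind : ∀ x y : O, (∀ v ∈ Y O H z, x • g v + y • g' v = 0) → ϖ ∣ x ∧ ϖ ∣ y)
    (nz : ∃ y ∈ Y O H z, κ y ≠ 0) : ∃ h ∈ H, (∀ x y : O,
      (∀ i, x • g (z (ko σ h) i) + y • g' (z (ko σ h) i) = 0) → ϖ ∣ x ∧ ϖ ∣ y) ∧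
      ∃ i, κ (z (ko σ h) i) ≠ 0 := by
  obtain ⟨h, m, p, q, a1, a2, a3, a4⟩ := chG c B hb hϖ h2 g g' κ h1 ind nz
  refine ⟨h, m, fun x y e => ?_, a4⟩
  have k : ∀ i, ϖ ∣ x * p i + y * q i := fun i => by
    rw [← mk_zero hb, ← e i, a1, a2, mul_add, map_add, mul_left_comm, mul_left_comm b]
    rfl
  constructor <;> refine (hϖ.dvd_or_dvd ?_).resolve_right a3
  · convert dvd_sub ((k 0).mul_right (q 1)) ((k 1).mul_right (q 0)) using 1; ring
  · convert dvd_sub ((k 1).mul_right (p 0)) ((k 0).mul_right (p 1)) using 1; ring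

/-- **the form for `CH`** -/
theorem ch (c : Ad A H z) (B : Cb A H σ τ u u') (hb : b ≠ 0) (hϖ : Prime ϖ) (h2 : ¬ ϖ ∣ 2)
    (g g' : M →ₗ[O] O) (κ : M →ₗ[O] M') (h1 : ∀ y ∈ Y O H z, b ∣ g y ∧ b ∣ g' y)
    (ind : ∀ x y : O, (∀ v ∈ Y O H z, b * ϖ ∣ (x • g + y • g') v) → ϖ ∣ x ∧ ϖ ∣ y)
    (nz : ∃ y ∈ Y O H z, κ y ≠ 0) : ∃ h ∈ H,
      ¬ b ^ 2 * ϖ ∣ g (z (ko σ h) 0) * g' (z (ko σ h) 1) - g (z (ko σ h) 1) * g' (z (ko σ h) 0) ∧
      ∃ i, κ (z (ko σ h) i) ≠ 0 := by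
  have t : ∀ {x : O}, b ∣ x → ϖ • (Ideal.span {b * ϖ}).mkQ x = 0 := by
    rintro _ ⟨p, rfl⟩
    rw [← map_smul, mkQ_apply, Quotient.mk_eq_zero, Ideal.mem_span_singleton]
    exact ⟨p, by rw [smul_eq_mul]; ring⟩
  obtain ⟨h, m, p, q, a1, a2, a3, a4⟩ := chG c B hb hϖ h2 ((Ideal.span {b * ϖ}).mkQ ∘ₗ g)
    ((Ideal.span {b * ϖ}).mkQ ∘ₗ g') κ (fun y hy => ⟨t (h1 y hy).1, t (h1 y hy).2⟩)
    (fun x y e => ind x y fun v hv => Ideal.mem_span_singleton.1 ((Quotient.mk_eq_zero _).1 (e v hv)))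
    nz
  refine ⟨h, m, fun k => a3 ?_, a4⟩
  choose p' hp using fun i => Ideal.mem_span_singleton.1 (Ideal.Quotient.eq.1 (a1 i))
  choose q' hq using fun i => Ideal.mem_span_singleton.1 (Ideal.Quotient.eq.1 (a2 i))
  rw [eq_add_of_sub_eq (hp 0), eq_add_of_sub_eq (hp 1), eq_add_of_sub_eq (hq 0),
    eq_add_of_sub_eq (hq 1)] at k
  rw [← mul_dvd_mul_iff_left (pow_ne_zero 2 hb)]
  convert dvd_sub k (dvd_mul_right (b ^ 2 * ϖ) (ϖ * p' 0 * q' 1 + p' 0 * q 1 + p 0 * q' 1 -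
    ϖ * p' 1 * q' 0 - p' 1 * q 0 - p 1 * q' 0)) using 1
  ring

end pts

/-- **Sah's lemma**: modulo the values on `H` the cocycle is a coboundary -/
theorem sah (c : Co A z) (B : Cb0 A H σ) (t1 : A τ = u • (1 : Matrix (Fin 2) (Fin 2) O))
    (h1 : IsUnit (u - 1))
    (ce : ∀ g, τ * g * τ⁻¹ * g⁻¹ ∈ H) :
    ∃ m : Fin 2 → M, ∀ g i, z g i - (∑ j, A g i j • m j - m i) ∈ Y O H z := by
  obtain ⟨v, hv⟩ := h1.exists_left_inv
  refine ⟨v • z τ, fun g i => ?_⟩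
  have e : z (τ * g) = z (τ * g * τ⁻¹ * g⁻¹ * (g * τ)) := by congr 1; group
  rw [c.left (B.ker _ (ce g)), c, c g, t1, sm_one] at e
  have e1 := congrFun e i
  simp only [Pi.add_apply, Pi.smul_apply] at e1 ⊢
  convert (Y O H z).smul_mem v (mem_Y z (ce g) i) using 1
  have e2 : v • (u - 1) • z g i = z g i := by rw [← mul_smul, hv, one_smul]
  simp only [smul_comm (A g i _) v, ← Finset.smul_sum]
  rw [eq_sub_of_add_eq e1.symm]
  conv_lhs => rw [← e2]
  module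

/-- a point which kills the values on `H` kills `t` (generic form) -/
theorem gen (c : Co A z) (B : Cb0 A H σ) (t1 : A τ = u • (1 : Matrix (Fin 2) (Fin 2) O))
    (h1 : IsUnit (u - 1))
    (ce : ∀ g, τ * g * τ⁻¹ * g⁻¹ ∈ H) {D : Set G} {e : G → Fin 2 → O} {t : M}
    (hD : ∀ g ∈ D, ∀ i, z g i = e g i • t) (κ : M →ₗ[O] M')
    (np : ∀ (x : M') (m : Fin 2 → M'), (∀ g ∈ D, ∀ i, e g i • x = ∑ j, A g i j • m j - m i) → x = 0)
    (h : κ t ≠ 0) : ∃ y ∈ Y O H z, κ y ≠ 0 := by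
  by_contra hc
  push Not at hc
  obtain ⟨m, hm⟩ := sah c B t1 h1 ce
  refine h (np _ (fun i => κ (m i)) fun g hg i => ?_)
  have := hc _ (hm g i)
  rw [hD g hg, map_sub, sub_eq_zero] at this
  simpa using this

/-- `t` is one of the values on `H` (primitive form) -/
theorem prim [IsDomain O] [IsDiscreteValuationRing O] {ϖ : O} (hϖ : Irreducible ϖ) (c : Co A z)
    (B : Cb0 A H σ) (t1 : A τ = u • (1 : Matrix (Fin 2) (Fin 2) O))
    (h1 : IsUnit (u - 1)) (ce : ∀ g, τ * g * τ⁻¹ * g⁻¹ ∈ H) {D : Set G}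
    {e : G → Fin 2 → O} {t : M} (hD : ∀ g ∈ D, ∀ i, z g i = e g i • t)
    (np : ∀ (x : O) (m : Fin 2 → O), (∀ g ∈ D, ∀ i, ϖ ∣ e g i * x - (∑ j, A g i j * m j - m i)) →
      ϖ ∣ x ∧ ∀ i, ϖ ∣ m i) : t ∈ Y O H z := by
  obtain ⟨m, hm⟩ := sah c B t1 h1 ce
  let L : (Option (Fin 2) → O) →ₗ[O] M := Fintype.linearCombination O fun o => o.elim t m
  let N := (Y O H z).comap L
  let ρ : G → Fin 2 → Option (Fin 2) → O := fun g i o =>
    o.elim (e g i) fun j => (1 - A g) i j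
  have k : ∀ g ∈ D, ∀ i, ρ g i ∈ N := fun g hg i => by
    show L (ρ g i) ∈ Y O H z
    convert hm g i using 1
    rw [hD g hg]
    fin_cases i <;> simp [L, ρ, Fintype.linearCombination_apply, Fintype.sum_option, sub_smul] <;> abel
  rcases eq_top_or_exists_le_coatom N with k1 | ⟨N', k1, k2⟩
  · have : L (Pi.single none 1) ∈ Y O H z := (k1 ▸ mem_top : _ ∈ N)
    simpa [L] using this
  obtain ⟨I, hI, ⟨φ⟩⟩ := isSimpleModule_iff_quot_maximal.1 (isSimpleModule_iff_isCoatom.2 k1)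
  have hr : ∀ x : O, Ideal.Quotient.mk I x = 0 ↔ ϖ ∣ x := fun x => by
    rw [Ideal.Quotient.eq_zero_iff_mem, IsLocalRing.eq_maximalIdeal hI, hϖ.maximalIdeal_eq,
      Ideal.mem_span_singleton]
  let f := φ.toLinearMap ∘ₗ N'.mkQ
  choose y hy using fun o => Ideal.Quotient.mk_surjective (f fun j => if o = j then 1 else 0)
  have hf : ∀ v, f v = Ideal.Quotient.mk I (∑ o, v o * y o) := fun v => by
    rw [LinearMap.pi_apply_eq_sum_univ, map_sum]
    exact Finset.sum_congr rfl fun o _ => by rw [← hy]; rfl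
  obtain ⟨a1, a2⟩ := np (y none) (fun i => y (some i)) fun g hg i => by
    have : f (ρ g i) = 0 := by simp [f, (Quotient.mk_eq_zero N').2 (k2 (k g hg i))]
    rw [hf, hr] at this
    convert this using 1
    fin_cases i <;> simp [ρ, Fintype.sum_option] <;> ring
  refine absurd (eq_top_iff.2 fun v _ => (Quotient.mk_eq_zero N').1 (φ.map_eq_zero_iff.1 ?_)) k1.1
  show f v = 0
  rw [hf, hr]
  exact Finset.dvd_sum fun o _ => Dvd.dvd.mul_left (by cases o; exacts [a1, a2 _]) _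

end Vale.Agent.P004F.Ch
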