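import Vale.Agent.P004F.St
import Vale.Agent.P004F.En.Big
import Vale.Agent.P022E.GW.TauG

/-!
# P004F, block CH: the group of the field, the row `ABS`
-/

set_option linter.all false

noncomputable section

namespace Vale.Agent.P004F.Ch

open NumberField Matrix
open Vale.Agent.P022 Vale.Agent.P004K
open Vale.Agent.P027M.S (Inert)
open Vale.Agent.P022E.GW (Ov Fb Gn)
open P004S (nu Rep Tr)
open scoped NumberTheorySymbols

variable (e : Crv)

theorem good {l : ℕ} (hl : l.Prime) (h : l ∉ e.S) : ¬ (l : ℤ) ∣ 2 * (4 * e.A ^ 3 + 27 * e.B ^ 2) :=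
  fun k => ((Nat.prime_iff_prime_int.1 hl).dvd_or_dvd k).elim
    (fun k => h ((Nat.prime_dvd_prime_iff_eq hl Nat.prime_two).1 (by exact_mod_cast k) ▸ e.two))
    (e.bad l hl h).2.1

theorem rep : Rep e.rp e.S.toFinset :=
  En.rep_ok _ (List.mem_toFinset.2 e.two) fun _ hl h => good e hl fun k => h (List.mem_toFinset.2 k)

theorem mt_rp (g : GQ) : P004S.mt e.rp g = (e.r g).map (algebraMap ℤ_[2] ℚ_[2]) := rfl

theorem tr_iff {n : ℕ} {g : GQ} : Tr e.rp n g ↔ ∀ i i', (2 : ℤ_[2]) ^ n ∣ (e.r g - 1) i i' := by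
  refine forall₂_congr fun i i' => ?_
  have : (P004S.mt e.rp g - 1) i i' = (((e.r g - 1) i i' : ℤ_[2]) : ℚ_[2]) := by
    by_cases h : i = i' <;> simp [mt_rp, one_apply, h]
  rw [this, Pat.dvd_iff_norm, PadicInt.padic_norm_e_of_padicInt, one_div, inv_pow, _root_.zpow_neg,
    zpow_natCast]

theorem r_inert {l : ℕ} {P : Ideal (𝓞 Qb)} (o : Ov l P) (h : l ∉ e.S) {g : GQ} (i : Inert P g) :
    e.r g = 1 := by
  have := (rep e).mt_inert o (fun k => h (List.mem_toFinset.1 k)) i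
  rw [mt_rp, ← Matrix.map_one (algebraMap ℤ_[2] ℚ_[2]) (map_zero _) (map_one _)] at this
  exact Matrix.map_injective (IsFractionRing.injective ℤ_[2] ℚ_[2]) this

theorem det_frob {l : ℕ} (hl : l.Prime) (h : l ∉ e.S) {g : GQ} (f : IsFrob l g) :
    (e.r g).det = l :=
  haveI : Fact l.Prime := ⟨hl⟩
  (P004M.TE.frob_mt (hq e.par.disc) (good e hl h) f).2

variable {e} (b : Fld e)

theorem dl_pos : 0 < b.δ' := by have := b.adm.m8; omega

theorem th_sq : b.j (b.θ : b.K) ^ 2 = ((-(b.δ' : ℤ) : ℤ) : Qb) := by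
  have := congrArg (fun x : 𝓞 b.K => b.j (algebraMap _ b.K x)) b.th
  simpa using this

/-- the group of the field -/
theorem gk {g : GQ} : g ∈ b.Γ ↔ nu (-(b.δ' : ℤ)) g = 0 := by
  rw [P004S.nu_eq_zero (th_sq b)]
  refine ⟨fun h => h _, fun h x => ?_⟩
  have := Subalgebra.isSimpleOrder_of_finrank b.iq.two
  rcases eq_bot_or_eq_top (AlgHom.equalizer ((g : Qb →ₐ[ℚ] Qb).comp b.j.toRatAlgHom)
    b.j.toRatAlgHom) with k | k
  · obtain ⟨q, hq⟩ : (b.θ : b.K) ∈ (⊥ : Subalgebra ℚ b.K) := k ▸ h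
    have h1 := th_sq b
    rw [← hq, eq_ratCast, map_ratCast] at h1
    have h2 : q ^ 2 = -(b.δ' : ℚ) := by exact_mod_cast h1
    have h3 : (0 : ℚ) < b.δ' := by exact_mod_cast dl_pos b
    nlinarith [sq_nonneg q]
  · exact (k ▸ Algebra.mem_top : x ∈ _)

theorem gk_eq : b.Γ = P004S.kn (-(b.δ' : ℤ)) := Subgroup.ext fun _ => gk b

theorem gk_open : IsOpen (b.Γ : Set GQ) := gk_eq b ▸ P004S.kn_open _

theorem not_gk {g : GQ} : g ∉ b.Γ ↔ nu (-(b.δ' : ℤ)) g = 1 := by
  rw [gk]; generalize nu _ g = a; revert a; decide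

theorem c_out : b.c ∉ b.Γ :=
  (not_gk b).2 (P004S.nu_neg_conj (by have := dl_pos b; omega) b.cc)

theorem mul_out {g h : GQ} (hg : g ∉ b.Γ) (hh : h ∉ b.Γ) : g * h ∈ b.Γ := by
  rw [gk, P004S.nu_mul, (not_gk b).1 hg, (not_gk b).1 hh]; rfl

theorem gk_conj (g : GQ) {h : GQ} (m : h ∈ b.Γ) : g * h * g⁻¹ ∈ b.Γ := by
  rwa [gk, P004S.nu_conj, ← gk]

theorem cc : b.c * b.c = 1 := P004M.TE.conj_sq (hq e.par.disc) b.cc

theorem det_c : (e.r b.c).det = -1 := P004M.TE.det_conj _ b.cc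

theorem inert_gk {l : ℕ} {P : Ideal (𝓞 Qb)} (o : Ov l P) (h2 : l ≠ 2) (h : ¬ l ∣ b.δ') {g : GQ}
    (i : Inert P g) : g ∈ b.Γ :=
  (gk b).2 (P004S.nu_inert o h2 (fun k => h (Int.natCast_dvd_natCast.1 (dvd_neg.1 k))) i)

theorem not_mem_S {l : ℕ} (hl : l.Prime) (h : l ∣ b.δ') : l ≠ 2 ∧ l ∉ e.S := by
  have h2 : l ≠ 2 := by rintro rfl; have := b.adm.m8; omega
  refine ⟨h2, fun k => ?_⟩
  have : Fact l.Prime := ⟨hl⟩
  have := b.adm.spl l k h2
  rw [jacobiSym.eq_zero_iff_not_coprime.2 (by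
    rw [Int.gcd, Int.natAbs_neg]
    exact fun c => hl.one_lt.ne' (Nat.eq_one_of_dvd_coprimes c h dvd_rfl))] at this
  exact zero_ne_one this

/-- an element outside the group of the field on which the representation is trivial -/
theorem ex_out : ∃ t ∉ b.Γ, e.r t = 1 := by
  obtain ⟨l, hl, h⟩ := Nat.exists_prime_and_dvd (n := b.δ') (by have := b.adm.m8; omega)
  obtain ⟨P, k⟩ := H916.exists_prime hl
  have o : Ov l P := ⟨hl, k⟩
  obtain ⟨t, ht⟩ := P022E.GW.Tg.ex_gn' o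
  obtain ⟨h2, h3⟩ := not_mem_S b hl h
  exact ⟨t, (not_gk b).2 (P004S.nu_tau o h2 (Int.squarefree_natAbs.1 (by simpa using b.adm.sq))
    (dvd_neg.2 (Int.natCast_dvd_natCast.2 h)) ht), r_inert e o h3 ht.1⟩

theorem r_sur (g : GQ) : ∃ h ∈ b.Γ, e.r h = e.r g := by
  by_cases m : g ∈ b.Γ
  · exact ⟨g, m, rfl⟩
  · obtain ⟨t, h1, h2⟩ := ex_out b
    exact ⟨g * t, mul_out b m h1, by rw [map_mul, h2, mul_one]⟩

/-- **Burnside** for an odd irreducible representation -/
theorem burn {L G : Type} [Field L] [Group G] (ρ : G →* Matrix (Fin 2) (Fin 2) L) (h2 : (2 : L) ≠ 0)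
    (irr : ∀ w, w ≠ 0 → ∃ x, ∀ a : L, ρ x *ᵥ w ≠ a • w) {c : G} (c1 : c * c = 1)
    (c2 : (ρ c).det = -1) : Submodule.span L (Set.range ρ) = ⊤ := by
  have kill : ∀ (M : Matrix (Fin 2) (Fin 2) L) w, w ≠ 0 → (∀ g, M *ᵥ (ρ g *ᵥ w) = 0) → M = 0 :=
    fun M w hw h => by_contra fun k => by
      obtain ⟨x, hx⟩ := irr w hw
      obtain ⟨a, ha⟩ := En.ker_line k hw (by simpa using h 1) (h x)
      exact hx a ha
  have col : ∀ {M : Matrix (Fin 2) (Fin 2) L}, M ≠ 0 → ∃ v, M *ᵥ v ≠ 0 := fun {M} h => by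
    by_contra k
    push Not at k
    exact h (Matrix.ext fun i j => by simpa using congrFun (k (Pi.single j 1)) i)
  by_contra hc
  obtain ⟨f, f0, hf⟩ := Submodule.exists_le_ker_of_lt_top _ (lt_top_iff_ne_top.2 hc)
  let X : Matrix (Fin 2) (Fin 2) L := .of fun i j => f (single j i 1)
  have hX : ∀ M, f M = (M * X).trace := fun M => by
    conv_lhs => rw [matrix_eq_sum_single M]
    simp only [map_sum, trace, diag, mul_apply, X, of_apply]
    refine Finset.sum_congr rfl fun i _ => Finset.sum_congr rfl fun j _ => ?_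
    rw [← smul_eq_mul, ← map_smul, smul_single, smul_eq_mul, mul_one]
  have X0 : X ≠ 0 := fun k => f0 (LinearMap.ext fun M => by rw [hX, k]; simp)
  have d0 : (1 + ρ c).det = 0 := by
    have h1 : ρ c * (1 + ρ c) = 1 + ρ c := by rw [mul_add, ← map_mul, c1, map_one, mul_one, add_comm]
    have := congrArg det h1
    rw [det_mul, c2] at this
    exact (mul_eq_zero.1 (by linear_combination -this)).resolve_left h2
  have e0 : 1 + ρ c ≠ 0 := fun k => by
    rw [eq_neg_of_add_eq_zero_right k, det_neg, det_one] at c2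
    rw [Fintype.card_fin] at c2
    exact h2 (by linear_combination c2)
  have r1 : ∀ M, (1 + ρ c) * M * (1 + ρ c) = ((1 + ρ c) * M).trace • (1 + ρ c) := fun M => by
    generalize 1 + ρ c = E at d0
    rw [det_fin_two] at d0
    ext i j
    fin_cases i <;> fin_cases j <;> simp [mul_apply, Fin.sum_univ_two, trace_fin_two]
    · linear_combination (-M 1 1) * d0
    · linear_combination (M 0 1) * d0
    · linear_combination (M 1 0) * d0
    · linear_combination (-M 0 0) * d0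
  obtain ⟨u, hu⟩ := col e0
  obtain ⟨w, hw⟩ := col X0
  refine e0 (kill _ _ hw fun g => ?_)
  rw [mulVec_mulVec, mulVec_mulVec, kill ((1 + ρ c) * ρ g * X) _ hu fun h => ?_, zero_mulVec]
  have : f (ρ h * (1 + ρ c) * ρ g) = 0 := by
    rw [mul_add, add_mul, mul_one, ← map_mul, ← map_mul, ← map_mul, map_add,
      hf (Submodule.subset_span ⟨_, rfl⟩), hf (Submodule.subset_span ⟨_, rfl⟩), add_zero]
  rw [hX, mul_assoc, mul_assoc, trace_mul_comm, mul_assoc] at this
  rw [mulVec_mulVec, mulVec_mulVec, mul_assoc _ _ X, mul_assoc _ _ (ρ h), r1, this, zero_smul,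
    zero_mulVec]

/-- **the row `ABS`** -/
theorem abs : ABS := fun e b => by
  let ρ : GQ →* Matrix (Fin 2) (Fin 2) ℚ_[2] := (Units.coeHom _).comp e.rp
  have h := burn ρ two_ne_zero (rep e).irr (cc b) (by
    show (P004S.mt e.rp b.c).det = -1
    rw [mt_rp, ← RingHom.mapMatrix_apply, ← RingHom.map_det, det_c, map_neg, map_one])
  set L := Submodule.span ℤ_[2] (e.r '' b.Γ)
  have k : ∀ X ∈ Submodule.span ℚ_[2] (Set.range ρ), ∃ n : ℕ, ∃ Y ∈ L,
      Y.map (algebraMap ℤ_[2] ℚ_[2]) = (2 : ℚ_[2]) ^ n • X := fun X hX => by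
    induction hX using Submodule.span_induction with
    | mem _ hx =>
      obtain ⟨g, rfl⟩ := hx
      obtain ⟨x, m, k⟩ := r_sur b g
      exact ⟨0, _, Submodule.subset_span ⟨x, m, rfl⟩, by rw [k, pow_zero, one_smul]; rfl⟩
    | zero => exact ⟨0, 0, zero_mem _, by ext; simp⟩
    | add x y _ _ hx hy =>
      obtain ⟨n, Y, m, k⟩ := hx
      obtain ⟨n', Y', m', k'⟩ := hy
      refine ⟨n + n', (2 : ℤ_[2]) ^ n' • Y + (2 : ℤ_[2]) ^ n • Y',
        add_mem (L.smul_mem _ m) (L.smul_mem _ m'), Matrix.ext fun i j => ?_⟩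
      have a1 := congrFun (congrFun k i) j
      have a2 := congrFun (congrFun k' i) j
      simp only [map_apply, Matrix.add_apply, Matrix.smul_apply, smul_eq_mul, map_add, map_mul, map_pow,
        map_ofNat] at a1 a2 ⊢
      rw [a1, a2]; ring
    | smul a x _ hx =>
      obtain ⟨n, Y, m, k⟩ := hx
      obtain ⟨n', w, k'⟩ := En.ex_int (hq e.par.disc) fun _ => a
      refine ⟨n + n', w 0 • Y, L.smul_mem _ m, Matrix.ext fun i j => ?_⟩
      have a1 := congrFun (congrFun k i) j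
      simp only [map_apply, Matrix.smul_apply, smul_eq_mul, map_mul] at a1 ⊢
      rw [a1, show algebraMap ℤ_[2] ℚ_[2] (w 0) = _ from k' 0]; ring
  choose n Y m k using fun p : Fin 2 × Fin 2 => k (single p.1 p.2 1) (h ▸ Submodule.mem_top)
  refine ⟨∑ p, n p, fun B => ?_⟩
  rw [matrix_eq_sum_single B, ← Finset.sum_product', Finset.smul_sum]
  refine sum_mem fun p _ => ?_
  obtain ⟨c, hc⟩ := Nat.exists_eq_add_of_le (Finset.single_le_sum (f := n) (fun _ _ => Nat.zero_le _)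
    (Finset.mem_univ p))
  convert L.smul_mem (2 ^ c * B p.1 p.2) (m p) using 1
  have : Y p = (2 : ℤ_[2]) ^ n p • single p.1 p.2 1 :=
    Matrix.map_injective (IsFractionRing.injective ℤ_[2] ℚ_[2]) ((k p).trans (Matrix.ext fun i j => by
      by_cases a : p.1 = i ∧ p.2 = j <;> simp [single, a]
      rfl))
  rw [this, hc, smul_smul, smul_single, smul_single, pow_add]
  congr 1
  simp only [smul_eq_mul]; ring

end Vale.Agent.P004F.Ch
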