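import Vale.Agent.P004F.Ch.Irr
import Vale.Agent.P004S.Lt

/-!
# P004F, block CH: the row `KPX`
-/

set_option linter.all false

noncomputable section

namespace Vale.Agent.P004F.Ch

open NumberField Matrix
open Vale.Agent.P022 Vale.Agent.P004K
open Vale.Agent.P027M.S (Inert)
open Vale.Agent.P022E.GW (Ov Fb Gn)
open P004S (nu Rep Tr)
open P004T (ds)

variable {e : Crv} (b : Fld e) {l : ℕ} {P : Ideal (𝓞 Qb)} {φ : GQ}

/-- a prime whose Frobenius element moves the field is inert -/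
theorem inert_prime (o : Ov l P) (h2 : l ≠ 2) (hd : ¬ l ∣ b.δ') (f : Fb l P φ) (h : φ ∉ b.Γ) :
    (Ideal.span {(l : 𝓞 b.K)}).IsPrime := by
  have := o.2.1
  let z : 𝓞 b.K →+* 𝓞 Qb := RingOfIntegers.mapRingHom b.j
  have pr : (P.comap z).IsPrime := Ideal.IsPrime.comap _
  have hl : (l : 𝓞 b.K) ∈ P.comap z := by rw [Ideal.mem_comap, map_natCast]; exact o.2.2
  obtain ⟨J, hJ⟩ := Ideal.dvd_iff_le.2 ((Ideal.span_singleton_le_iff_mem _).2 hl)
  have n := congrArg Ideal.absNorm hJ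
  rw [Ideal.absNorm_span_natCast, RingOfIntegers.rank, b.iq.two, map_mul] at n
  obtain ⟨i, hi, k⟩ := (Nat.dvd_prime_pow o.1).1 (Dvd.intro _ n.symm)
  interval_cases i
  · exact absurd (Ideal.absNorm_eq_one_iff.1 k) pr.ne_top
  · exfalso
    have n0 : P.comap z ≠ ⊥ := fun k => o.1.ne_zero (by simpa [k] using hl)
    have mx := pr.isMaximal n0
    letI := Ideal.Quotient.field (P.comap z)
    have := Ideal.finiteQuotientOfFreeOfNeBot _ n0
    letI := Fintype.ofFinite (𝓞 b.K ⧸ P.comap z)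
    have c : Fintype.card (𝓞 b.K ⧸ P.comap z) = l := by
      rw [← pow_one l, ← k, Ideal.absNorm_apply, Submodule.cardQuot_apply, Nat.card_eq_fintype_card]
    have a1 := FiniteField.pow_card (Ideal.Quotient.mk (P.comap z) b.θ)
    rw [c, ← map_pow, Ideal.Quotient.eq, Ideal.mem_comap, map_sub, map_pow] at a1
    have a2 := f (z b.θ)
    have d0 : (-(b.δ' : ℤ)) ≠ 0 := by have := dl_pos b; omega
    rw [show φ • z b.θ = -z b.θ from RingOfIntegers.ext
      ((P004S.nu_eq_one d0 (th_sq b)).1 ((not_gk b).1 h))] at a2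
    have a3 : ((4 * b.δ' : ℤ) : 𝓞 Qb) ∈ P := by
      convert P.mul_mem_left (2 * z b.θ) (P.add_mem a1 a2) using 1
      have := congrArg z b.th
      rw [map_pow, map_neg, map_natCast] at this
      push_cast
      linear_combination 4 * this
    rcases (Nat.prime_iff_prime_int.1 o.1).dvd_or_dvd (P004S.ov_dvd o a3) with k4 | k4
    · have : l ∣ 2 ^ 2 := by exact_mod_cast k4
      exact h2 ((Nat.prime_dvd_prime_iff_eq o.1 Nat.prime_two).1 (o.1.dvd_of_dvd_pow this))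
    · exact hd (Int.natCast_dvd_natCast.1 k4)
  · rw [k] at n
    rw [hJ, Ideal.absNorm_eq_one_iff.1 (mul_left_cancel₀ (pow_ne_zero 2 o.1.ne_zero)
      (n.symm.trans (mul_one _).symm)), Ideal.mul_top]
    exact pr

/-- inertia groups fix the ring class fields of conductor prime to `l` -/
theorem inert_hc (r2 : RC2) (o : Ov l P) {c : ℕ} (hc : 0 < c) (h : ¬ l ∣ c) {g : GQ} (m : g ∈ b.Γ)
    (i : Inert P g) : g ∈ Hc b.j c := by
  obtain ⟨-, -, -, -, a1, -, a2⟩ := r2 b.K b.j b.iq c hc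
  refine (a1 _ g ⟨by simp, by simp⟩ (a2 P o.2.1 (fun k => o.1.ne_zero (by simpa [k] using o.2.2))
    (fun k => h (Int.natCast_dvd_natCast.1 (P004S.ov_dvd o (by simpa using k)))) g m 0
    (by simpa [Inert] using i))).2 ⟨1, 0, by simp⟩

/-- a generator for the ring class field generates tame inertia -/
theorem gn_of (r1 : RC1) (r2 : RC2) (o : Ov l P) (h2 : l ≠ 2) (hd : ¬ l ∣ b.δ') {t : GQ}
    (i : Inert P t) {n : ℕ} (hn : Even n) (g : Gen b.j 1 l n t) : Gn l P t := by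
  classical
  obtain ⟨-, a1, a2, -⟩ := r1 b.K b.j b.iq (1 * l) (by simpa using o.1.pos)
  obtain ⟨τ, hτ⟩ := P022E.GW.Tg.ex_gn' o
  let ω : GQ → ZMod 2 := fun x => if ∃ k : ℕ, x⁻¹ * t ^ (2 * k) ∈ Hc b.j (1 * l) then 0 else 1
  have key : ∀ x (k : ℕ), x⁻¹ * t ^ k ∈ Hc b.j (1 * l) → ω x = k := fun x k hk => by
    rcases Nat.even_or_odd' k with ⟨k, rfl | rfl⟩
    · rw [(ZMod.natCast_eq_zero_iff _ _).2 (dvd_mul_right _ _)]
      exact if_pos ⟨k, hk⟩
    · rw [ZMod.natCast_eq_one_iff_odd.2 (odd_two_mul_add_one k)]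
      refine if_neg fun ⟨k', h⟩ => ?_
      have h1 := mul_mem (inv_mem h) hk
      rw [_root_.mul_inv_rev, inv_inv, mul_assoc, mul_inv_cancel_left] at h1
      rcases le_total k' k with c | c
      · obtain ⟨a, rfl⟩ := Nat.exists_eq_add_of_le c
        rw [mul_add, add_assoc, pow_add, inv_mul_cancel_left] at h1
        have := (even_iff_two_dvd.1 hn).trans ((g.2.1 _).1 h1)
        omega
      · rcases c.eq_or_lt with rfl | c
        · rw [pow_succ, inv_mul_cancel_left, ← pow_one t] at h1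
          have := (even_iff_two_dvd.1 hn).trans ((g.2.1 _).1 h1)
          omega
        · obtain ⟨a, rfl⟩ := Nat.exists_eq_add_of_lt c
          have h3 := inv_mem h1
          rw [_root_.mul_inv_rev, inv_inv, show 2 * (k + a + 1) = 2 * k + 1 + (2 * a + 1) by ring,
            pow_add t (2 * k + 1), inv_mul_cancel_left] at h3
          have := (even_iff_two_dvd.1 hn).trans ((g.2.1 _).1 h3)
          omega
  have ex : ∀ x, Inert P x → ∃ k : ℕ, x⁻¹ * t ^ k ∈ Hc b.j (1 * l) := fun x hx =>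
    g.2.2 x (inert_hc b r2 o one_pos (fun k => o.1.one_lt.ne' (Nat.dvd_one.1 k))
      (inert_gk b o h2 hd hx) hx)
  obtain ⟨k, hk⟩ := (P004S.lt l P o).1 τ 1 t h2 hτ i (Hc b.j (1 * l) ⊓ P004S.kn l)
    (a1.inter (P004S.kn_open l))
  have z : ∀ a : ZMod 2, 2 ^ 1 • a = 0 := by decide
  have b1 := hk _ (nu l) z (fun _ _ m => m.2) fun g h _ _ => P004S.nu_mul l g h
  have b2 := hk _ ω z (fun x _ m => by simpa using key x 0 (by simpa using m.1)) fun x y hx hy => by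
    obtain ⟨u, hu⟩ := ex x hx
    obtain ⟨v, hv⟩ := ex y hy
    rw [key x u hu, key y v hv, key (x * y) (u + v), Nat.cast_add]
    convert mul_mem (a2.conj_mem' _ hu y) hv using 1
    rw [pow_add]; group
  rw [key t 1 (by simpa using one_mem _), Nat.cast_one, nsmul_eq_mul] at b2
  rw [P004S.nu_gn o hτ, nsmul_eq_mul, mul_one] at b1
  have b3 : nu l t = 1 := by
    rw [b1]
    exact (P004S.z2 _).resolve_left (left_ne_zero_of_mul_eq_one b2.symm)
  exact ⟨i, fun w hw => (P004S.nu_eq_one (Int.natCast_ne_zero.2 o.1.ne_zero)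
    (by exact_mod_cast hw)).1 b3⟩

/-- **the row `KPX`** -/
theorem kpx (r1 : RC1) (r2 : RC2) (r3 : RC3) : KPX := by
  intro e b j c Ψ hΨ h m t1 t2 t3 W hW T
  have c0 : 0 < c := hΨ.sq.ne_zero.bot_lt
  obtain ⟨U, hU, le⟩ := P022K.G2.ex_lv' (H := W ⊓ Hc b.j c ⊓ (rep e).Kn (j + 1) ⊓ P004S.kn (ds e.δ))
    (((hW.inter (r1 b.K b.j b.iq c c0).2.1).inter ((rep e).Kn_open _)).inter (P004S.kn_open _))
  obtain ⟨l, φ, hl, lT, ⟨P, hP⟩, hφ⟩ := P022K.Cheb.exists_fr
    (hU.opn.preimage (continuous_const_mul (b.c * h)⁻¹)) (g := b.c * h) (by simpa using U.one_mem)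
    (T ∪ b.T c ∪ (b.M * b.δ').primeFactors)
  obtain ⟨u, hu, rfl⟩ : ∃ u ∈ U, φ = b.c * h * u := ⟨_, hφ, by group⟩
  simp only [Finset.mem_union, not_or] at lT
  obtain ⟨⟨l1, l2⟩, l3⟩ := lT
  have lS : l ∉ e.S := fun k => l2 (Finset.mem_union_left _ (List.mem_toFinset.2 k))
  have h2 : l ≠ 2 := fun k => lS (k ▸ e.two)
  have l4 : ¬ l ∣ b.M * b.δ' := fun k =>
    l3 (Nat.mem_primeFactors.2 ⟨hl, k, (Nat.mul_pos b.M0 (dl_pos b)).ne'⟩)
  have l5 : ¬ l ∣ b.δ' := fun k => l4 (k.mul_left _)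
  have o : Ov l P := ⟨hl, hP.1, hP.2.1⟩
  obtain ⟨⟨⟨-, u1⟩, u2⟩, u3⟩ := le hu
  have e1 : b.c * (b.c * h * u) = h * u := by rw [← mul_assoc, ← mul_assoc, cc, one_mul]
  have out : b.c * h * u ∉ b.Γ := fun k =>
    c_out b ((b.Γ.mul_mem_cancel_right m).1 ((b.Γ.mul_mem_cancel_right u1.1).1 k))
  have tr := (tr_iff e).1 (((rep e).Kn (j + 1)).mul_mem ((tr_iff e).2 t1) u2)
  have dv : 2 ^ (j + 1) ∣ l + 1 := by
    have a1 : (e.r (h * u)).map (PadicInt.toZModPow (j + 1)) = 1 := Matrix.ext fun i i' => by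
      have := tr i i'
      rw [← Ideal.mem_span_singleton, show (2 : ℤ_[2]) = (2 : ℕ) from rfl, ← PadicInt.ker_toZModPow,
        RingHom.mem_ker, Matrix.sub_apply, map_sub, sub_eq_zero] at this
      rw [map_apply, this]
      by_cases a : i = i' <;> simp [one_apply, a]
    have a2 := congrArg det a1
    rw [← RingHom.mapMatrix_apply, ← RingHom.map_det, ← e1, map_mul, det_mul, det_c,
      det_frob e hl lS ⟨P, hP⟩, det_one] at a2
    rw [← ZMod.natCast_eq_zero_iff, Nat.cast_add, Nat.cast_one, ← a2]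
    simp
  obtain ⟨t, i, g⟩ := (r3 b.K b.j b.iq b.upm).2 l (l + 1)
    ⟨hl, .inl ⟨inert_prime b o h2 l5 hP.2.2 out, rfl⟩⟩ P hP.1 hP.2.1
  refine ⟨⟨l, P, b.c * h * u, t, ⟨o, h2, dv, hP.2.2, gn_of b r1 r2 o h2 l5 i
    (hl.odd_of_ne_two h2).add_one (g 1 one_pos fun k => hl.one_lt.ne' (Nat.dvd_one.1 k)),
    fun x hx => inert_gk b o h2 l5 hx, out⟩, l2, l4, e1.symm ▸ tr, ?_, ?_, g⟩, l1, ?_⟩
  · rw [e1, P004S.nu_mul, t2, u3, add_zero]
  · rw [e1, hΨ.mul h m u u1.1, t3, hΨ.ker u u1, mul_one]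
  · refine (le ?_).1.1.1
    convert mul_mem (hU.nrm.conj_mem' u hu (b.c * h)) hu using 1
    simp only [pow_two]; group

end Vale.Agent.P004F.Ch
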